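import Vale.Agent.P352G.Defs
import Vale.Agent.P352X.EG.SG
import Vale.Agent.P352X.R.JC.A2
import Vale.Agent.P352.BW.T.Bwf

/-!
# P352G, row BWG: from the standard wedge to all wedges with edge through the origin
-/

set_option linter.all false

open Filter Topology
open scoped ComplexConjugate

noncomputable section

namespace Vale.Agent.P352G40

open Vale.Agent.P352 Vale.Agent.P352.GF Vale.Agent.P352.BW Vale.Agent.P352.H246 Vale.Agent.P352.H496
open Vale.Agent.P352.H755 Vale.Agent.P352.H15 Vale.Agent.P352X Vale.Agent.P352G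
open UniformSpace (Completion)

variable (D : Type*) [NormedAddCommGroup D] [InnerProductSpace ℂ D] [GrD D]

/-- the theorem of Bisognano and Wichmann for the standard wedge -/
def BW0 : Prop := ∀ (Q : Theory D) A (𝒜 : Set V → VonNeumannAlgebra (Completion D)),
  LNmZ Q A 𝒜 → TfGenZ Q → ∀ (t : ℝ) (E : P132.ModData (𝒜 (Wdg va vb 0)) (om Q))
    (z : Completion D), E.U t z = Ue Q 1 (T.bq va vb t) 0 z

theorem an_bq {a b : V} (t : ℝ) : AN a (T.bq a b t) := fun x hx =>
  ⟨(Real.exp (-(2 * Real.pi * t)) - 1) * GF.mdot b x, by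
    rw [T.bq, sim_bst, hx, mul_zero, zero_smul, add_zero]⟩

theorem bq_cj {a b : V} {L : Ix → V} {s r : ℝ} (hL : IsLor L) (hab : GF.mdot a b = 1)
    (h1 : sim 1 L 0 va = s • a) (h2 : sim 1 L 0 vb = r • b) (t : ℝ) (x : V) :
    sim 1 (T.bq a b t) 0 (sim 1 L 0 x) = sim 1 L 0 (sim 1 (T.bq va vb t) 0 x) := by
  have e : s * r = 1 := by
    have h := mdot_sim hL va vb
    rw [h1, h2, md_smul, md_comm, md_smul, md_comm, hab, md_ab] at h
    linarith
  have e1 : GF.mdot vb x = r * GF.mdot b (sim 1 L 0 x) := by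
    rw [← mdot_sim hL vb x, h2, md_comm, md_smul, md_comm]
  have e2 : GF.mdot va x = s * GF.mdot a (sim 1 L 0 x) := by
    rw [← mdot_sim hL va x, h1, md_comm, md_smul, md_comm]
  rw [T.bq, T.bq, sim_bst, sim_bst, simL_add, simL_add, simL_smul, simL_smul, h1, h2, e1, e2,
    smul_smul, smul_smul]
  congr 2
  · congr 1
    linear_combination (-(Real.exp (-(2 * Real.pi * t)) - 1) * GF.mdot b (sim 1 L 0 x)) * e
  · linear_combination (-(Real.exp (2 * Real.pi * t) - 1) * GF.mdot a (sim 1 L 0 x)) * e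

variable {D}

/-- **all frames** -/
theorem frame (h0 : BW0 D) : BWG D := by
  intro Q A N hN hG a b t L E z ha hb hab hL h
  obtain rfl : L = T.bq a b t := T.mat_ext fun x => by rw [h, T.bq, sim_bst]
  obtain ⟨L, s, r, hL', hs, hr, h1, h2⟩ := JCa.rl ha hb (by rw [hab]; exact one_pos)
  have im : sim 1 L 0 '' Wdg va vb 0 = Wdg a b 0 := JCa.wdg_img hL' hs hr h1 h2 0
  have S := EG.sg_row hN.cg
  obtain ⟨E0⟩ := S.md
  let g : EG.Sh hN.cg := ⟨⟨1, L, 0, one_pos, hL'⟩, false⟩
  have hu := S.uni g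
  have e1 : ∀ z, star (g.U hN.cg) (g.U hN.cg z) = z := fun z =>
    congrArg (fun A : Completion D →L[ℂ] Completion D => A z) hu.1
  have e2 : ∀ z, g.U hN.cg (star (g.U hN.cg) z) = z := fun z =>
    congrArg (fun A : Completion D →L[ℂ] Completion D => A z) hu.2
  have im' : g.act '' Wdg va vb 0 = Wdg a b 0 := im
  have k := (eblock : EStmt (Completion D)) _ _ _ E0 E (Unitary.linearIsometryEquiv ⟨_, hu⟩)
    (S.vac g).1
    (fun X hX => ⟨_, by have := (S.alg g _ X).1 hX; rwa [im'] at this, fun z =>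
      congrArg (fun w => g.U hN.cg (X w)) (e1 z)⟩)
    (fun Y hY => ⟨star (g.U hN.cg) * Y * g.U hN.cg, (S.alg g _ _).2 (by
      rw [im', ← mul_assoc, ← mul_assoc, hu.2, one_mul, mul_assoc, hu.2, mul_one]; exact hY),
      fun z => (e2 _).symm⟩) t (star (g.U hN.cg) z)
  have k' : g.U hN.cg (E0.U t (star (g.U hN.cg) z)) = E.U t z := k.trans (congrArg _ (e2 z))
  have gU : ∀ w, g.U hN.cg w = Ue Q 1 L 0 w := fun w => Ug_apply _ one_pos hL' 0 w
  have lq := T.isLor_bq null_va null_vb md_ab t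
  have cj : ∀ w, Ue Q 1 L 0 (Ue Q 1 (T.bq va vb t) 0 w) = Ue Q 1 (T.bq a b t) 0 (Ue Q 1 L 0 w) :=
    fun w => Completion.induction_on w
      (isClosed_eq ((ue_cont _ _ _).comp (ue_cont _ _ _)) ((ue_cont _ _ _).comp (ue_cont _ _ _)))
      fun v => by
        have s0 : sim 1 (T.bq a b t) 0 0 = 0 := by funext n; simp [sim]
        have := hN.cj 1 L 0 _ _ va v one_pos hL' lq hL null_va (an_bq t) (bq_cj hL' hab h1 h2 t)
        rw [s0, sub_zero] at this
        rw [ue_coe one_pos lq, ue_coe one_pos hL', ue_coe one_pos hL', ue_coe one_pos hL, this]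
  have k2 : E0.U t (star (g.U hN.cg) z) = _ := h0 Q A N hN hG t E0 _
  rw [← k', k2, gU, cj, ← gU, e2]

end Vale.Agent.P352G40

end
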